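import Mathlib

/-!
# P130B: skyscrapers

The skyscraper over a measure-preserving transformation `τ` of `X` with height function `r ≥ 1`:
the points are `(x, i)`, `i < r x`, and `(x, i)` is sent to `(x, i + 1)` if `i + 1 < r x` and to
`(τ x, 0)` otherwise.
-/

open MeasureTheory Filter Topology
open scoped ENNReal

namespace P130B

variable {X : Type} [MeasurableSpace X]

/-- the skyscraper of height `r` -/
abbrev Sky (r : X → ℕ) : Type := {p : X × ℕ // p.2 < r p.1}

theorem measurableSet_sky {r : X → ℕ} (hr : Measurable r) :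
    MeasurableSet {p : X × ℕ | p.2 < r p.1} :=
  measurableSet_lt measurable_snd (hr.comp measurable_fst)

theorem standardBorel_sky [StandardBorelSpace X] {r : X → ℕ} (hr : Measurable r) :
    StandardBorelSpace (Sky r) :=
  (measurableSet_sky hr).standardBorel

theorem embedding_sky {r : X → ℕ} (hr : Measurable r) :
    MeasurableEmbedding (fun p : Sky r => p.1) :=
  MeasurableEmbedding.subtype_coe (measurableSet_sky hr)

/-- the point `(x, i)` -/
def mkS {r : X → ℕ} (x : X) (i : ℕ) (h : i < r x) : Sky r := ⟨(x, i), h⟩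

omit [MeasurableSpace X] in
theorem sky_ext {r : X → ℕ} {p q : Sky r} (h1 : p.1.1 = q.1.1) (h2 : p.1.2 = q.1.2) : p = q :=
  Subtype.ext (Prod.ext h1 h2)

/-- the transformation -/
def skyF (τ : X → X) {r : X → ℕ} (h1 : ∀ x, 0 < r x) (p : Sky r) : Sky r :=
  if h : p.1.2 + 1 < r p.1.1 then ⟨(p.1.1, p.1.2 + 1), h⟩ else ⟨(τ p.1.1, 0), h1 _⟩

/-- its inverse (`σ` is the inverse of `τ`) -/
def skyG (σ : X → X) {r : X → ℕ} (h1 : ∀ x, 0 < r x) (p : Sky r) : Sky r :=
  if p.1.2 = 0 then ⟨(σ p.1.1, r (σ p.1.1) - 1), Nat.sub_lt (h1 _) one_pos⟩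
  else ⟨(p.1.1, p.1.2 - 1), lt_of_le_of_lt (Nat.sub_le _ _) p.2⟩

omit [MeasurableSpace X] in
theorem skyF_fst (τ : X → X) {r : X → ℕ} (h1 : ∀ x, 0 < r x) (p : Sky r) :
    (skyF τ h1 p).1 = if p.1.2 + 1 < r p.1.1 then (p.1.1, p.1.2 + 1) else (τ p.1.1, 0) := by
  unfold skyF
  split_ifs <;> rfl

omit [MeasurableSpace X] in
theorem skyG_fst (σ : X → X) {r : X → ℕ} (h1 : ∀ x, 0 < r x) (p : Sky r) :
    (skyG σ h1 p).1 = if p.1.2 = 0 then (σ p.1.1, r (σ p.1.1) - 1) else (p.1.1, p.1.2 - 1) := by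
  unfold skyG
  split_ifs <;> rfl

theorem measurable_skyF {τ : X → X} (hτ : Measurable τ) {r : X → ℕ} (hr : Measurable r)
    (h1 : ∀ x, 0 < r x) : Measurable (skyF τ h1) := by
  have hv : Measurable fun p : Sky r => p.1 := measurable_subtype_coe
  have ha : Measurable fun p : Sky r => p.1.1 := measurable_fst.comp hv
  have hb : Measurable fun p : Sky r => p.1.2 := measurable_snd.comp hv
  have h : Measurable fun p : Sky r => (skyF τ h1 p).1 := by
    simp only [skyF_fst]
    refine Measurable.ite ?_ (ha.prodMk (hb.add_const 1)) ((hτ.comp ha).prodMk measurable_const)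
    exact measurableSet_lt (hb.add_const 1) (hr.comp ha)
  exact h.subtype_mk

theorem measurable_skyG {σ : X → X} (hσ : Measurable σ) {r : X → ℕ} (hr : Measurable r)
    (h1 : ∀ x, 0 < r x) : Measurable (skyG σ h1) := by
  have hv : Measurable fun p : Sky r => p.1 := measurable_subtype_coe
  have ha : Measurable fun p : Sky r => p.1.1 := measurable_fst.comp hv
  have hb : Measurable fun p : Sky r => p.1.2 := measurable_snd.comp hv
  have h : Measurable fun p : Sky r => (skyG σ h1 p).1 := by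
    simp only [skyG_fst]
    refine Measurable.ite (hb (measurableSet_singleton 0)) ?_ (ha.prodMk (hb.sub_const 1))
    exact (hσ.comp ha).prodMk ((hr.comp (hσ.comp ha)).sub_const 1)
  exact h.subtype_mk

/-- the transformation as a measurable equivalence -/
def skyT (τ : X ≃ᵐ X) {r : X → ℕ} (hr : Measurable r) (h1 : ∀ x, 0 < r x) : Sky r ≃ᵐ Sky r where
  toFun := skyF τ h1
  invFun := skyG τ.symm h1
  left_inv p := by
    have hp : p.1.2 < r p.1.1 := p.2
    refine Subtype.ext ?_
    rw [skyG_fst, skyF_fst]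
    by_cases h : p.1.2 + 1 < r p.1.1
    · rw [if_pos h, if_neg (Nat.succ_ne_zero _)]
      rfl
    · rw [if_neg h, if_pos rfl]
      simp only [MeasurableEquiv.symm_apply_apply]
      refine Prod.ext rfl ?_
      simp only
      omega
  right_inv p := by
    have hp : p.1.2 < r p.1.1 := p.2
    refine Subtype.ext ?_
    rw [skyF_fst, skyG_fst]
    by_cases h : p.1.2 = 0
    · rw [if_pos h]
      have h2 := h1 (τ.symm p.1.1)
      rw [if_neg (by simp only; omega)]
      simp only [MeasurableEquiv.apply_symm_apply]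
      exact Prod.ext rfl h.symm
    · rw [if_neg h, if_pos (by simp only; omega)]
      refine Prod.ext rfl ?_
      simp only
      omega
  measurable_toFun := measurable_skyF τ.measurable hr h1
  measurable_invFun := measurable_skyG τ.symm.measurable hr h1

theorem skyT_apply (τ : X ≃ᵐ X) {r : X → ℕ} (hr : Measurable r) (h1 : ∀ x, 0 < r x) (p : Sky r) :
    skyT τ hr h1 p = skyF τ h1 p := rfl

theorem skyT_mk_lt (τ : X ≃ᵐ X) {r : X → ℕ} (hr : Measurable r) (h1 : ∀ x, 0 < r x) (x : X)
    (i : ℕ) (h : i + 1 < r x) :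
    skyT τ hr h1 (mkS x i (Nat.lt_of_succ_lt h)) = mkS x (i + 1) h := by
  refine Subtype.ext ?_
  rw [skyT_apply, skyF_fst]
  exact if_pos h

theorem skyT_mk_last (τ : X ≃ᵐ X) {r : X → ℕ} (hr : Measurable r) (h1 : ∀ x, 0 < r x) (x : X)
    (i : ℕ) (h : i < r x) (h' : i + 1 = r x) :
    skyT τ hr h1 (mkS x i h) = mkS (τ x) 0 (h1 _) := by
  refine Subtype.ext ?_
  rw [skyT_apply, skyF_fst]
  exact if_neg (by change ¬ (i + 1 < r x); omega)

theorem skyT_iter (τ : X ≃ᵐ X) {r : X → ℕ} (hr : Measurable r) (h1 : ∀ x, 0 < r x) (x : X)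
    (i : ℕ) (h : i < r x) : (skyT τ hr h1)^[i] (mkS x 0 (h1 x)) = mkS x i h := by
  induction i with
  | zero => rfl
  | succ i ih => rw [Function.iterate_succ_apply', ih (Nat.lt_of_succ_lt h), skyT_mk_lt]

theorem skyT_iter_r (τ : X ≃ᵐ X) {r : X → ℕ} (hr : Measurable r) (h1 : ∀ x, 0 < r x) (x : X) :
    (skyT τ hr h1)^[r x] (mkS x 0 (h1 x)) = mkS (τ x) 0 (h1 _) := by
  have h2 := h1 x
  obtain ⟨k, hk⟩ : ∃ k, r x = k + 1 := Nat.exists_eq_succ_of_ne_zero h2.ne'
  rw [hk, Function.iterate_succ_apply', skyT_iter τ hr h1 x k (by omega),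
    skyT_mk_last τ hr h1 x k (by omega) hk.symm]

/-- the horizontal sections of a set -/
def slice {r : X → ℕ} (E : Set (Sky r)) (i : ℕ) : Set X := {x | ∃ h : i < r x, mkS x i h ∈ E}

/-- the measure on the skyscraper (not normalized) -/
noncomputable def skyM (ν : Measure X) (r : X → ℕ) : Measure (Sky r) :=
  (ν.prod Measure.count).comap fun p : Sky r => p.1

omit [MeasurableSpace X] in
theorem slice_eq {r : X → ℕ} (E : Set (Sky r)) (i : ℕ) :
    (fun x : X => (x, i)) ⁻¹' ((fun p : Sky r => p.1) '' E) = slice E i := by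
  ext x
  constructor
  · rintro ⟨p, hp, hpe⟩
    have h2 : p.1 = (x, i) := hpe
    have h3 : i < r x := by
      have := p.2
      rw [h2] at this
      exact this
    refine ⟨h3, ?_⟩
    have h4 : p = mkS x i h3 := Subtype.ext h2
    rw [← h4]
    exact hp
  · rintro ⟨h, hE⟩
    exact ⟨_, hE, rfl⟩

theorem measurableSet_slice {r : X → ℕ} (hr : Measurable r) {E : Set (Sky r)}
    (hE : MeasurableSet E) (i : ℕ) : MeasurableSet (slice E i) := by
  rw [← slice_eq]
  exact (measurable_prodMk_right) ((embedding_sky hr).measurableSet_image.2 hE)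

theorem skyM_apply (ν : Measure X) [SFinite ν] {r : X → ℕ} (hr : Measurable r)
    {E : Set (Sky r)} (hE : MeasurableSet E) : skyM ν r E = ∑' i, ν (slice E i) := by
  unfold skyM
  rw [(embedding_sky hr).comap_apply, Measure.prod_apply_symm
    ((embedding_sky hr).measurableSet_image.2 hE), lintegral_count]
  refine tsum_congr fun i => ?_
  rw [slice_eq]

omit [MeasurableSpace X] in
theorem slice_univ (r : X → ℕ) (i : ℕ) : slice (Set.univ : Set (Sky r)) i = {x | i < r x} := by
  ext x
  constructor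
  · rintro ⟨h, -⟩
    exact h
  · intro h
    exact ⟨h, Set.mem_univ _⟩

private theorem tsum_lt (k : ℕ) : ∑' i : ℕ, (if i < k then (1 : ℝ≥0∞) else 0) = k := by
  rw [tsum_eq_sum (s := Finset.range k)]
  · rw [Finset.sum_congr rfl fun i hi => if_pos (Finset.mem_range.1 hi), Finset.sum_const,
      Finset.card_range, nsmul_eq_mul, mul_one]
  · intro i hi
    rw [if_neg]
    rwa [Finset.mem_range] at hi

theorem skyM_univ (ν : Measure X) [SFinite ν] {r : X → ℕ} (hr : Measurable r) :
    skyM ν r Set.univ = ∫⁻ x, (r x : ℝ≥0∞) ∂ν := by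
  rw [skyM_apply ν hr MeasurableSet.univ]
  have h2 : ∀ i, MeasurableSet {x | i < r x} := fun i => measurableSet_lt measurable_const hr
  have h1 : ∀ i, ν (slice (Set.univ : Set (Sky r)) i) =
      ∫⁻ x, (if i < r x then (1 : ℝ≥0∞) else 0) ∂ν := by
    intro i
    rw [slice_univ, ← lintegral_indicator_one (h2 i)]
    refine lintegral_congr fun x => ?_
    rw [Set.indicator_apply]
    rfl
  simp only [h1]
  rw [← lintegral_tsum fun i => ?_]
  · refine lintegral_congr fun x => ?_
    exact tsum_lt (r x)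
  · exact (Measurable.ite (h2 i) measurable_const measurable_const).aemeasurable

theorem slice_preimage (τ : X ≃ᵐ X) {r : X → ℕ} (hr : Measurable r) (h1 : ∀ x, 0 < r x)
    (E : Set (Sky r)) (i : ℕ) : slice ((skyT τ hr h1) ⁻¹' E) i =
      slice E (i + 1) ∪ ({x | r x = i + 1} ∩ τ ⁻¹' (slice E 0)) := by
  ext x
  constructor
  · rintro ⟨h, hE⟩
    rcases lt_or_ge (i + 1) (r x) with h2 | h2
    · left
      refine ⟨h2, ?_⟩
      rw [← skyT_mk_lt τ hr h1 x i h2]
      exact hE
    · right
      have h3 : i + 1 = r x := by omega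
      refine ⟨h3.symm, h1 _, ?_⟩
      rw [← skyT_mk_last τ hr h1 x i h h3]
      exact hE
  · rintro (⟨h, hE⟩ | ⟨h3, h4, hE⟩)
    · refine ⟨Nat.lt_of_succ_lt h, ?_⟩
      rw [Set.mem_preimage, skyT_mk_lt τ hr h1 x i h]
      exact hE
    · have h3' : i + 1 = r x := (show r x = i + 1 from h3).symm
      have h5 : i < r x := by omega
      refine ⟨h5, ?_⟩
      rw [Set.mem_preimage, skyT_mk_last τ hr h1 x i h5 h3']
      exact hE

/-- the skyscraper transformation preserves the measure -/
theorem measurePreserving_skyT {ν : Measure X} [SFinite ν] {τ : X ≃ᵐ X}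
    (hτ : MeasurePreserving τ ν ν) {r : X → ℕ} (hr : Measurable r) (h1 : ∀ x, 0 < r x) :
    MeasurePreserving (skyT τ hr h1) (skyM ν r) (skyM ν r) := by
  refine ⟨(skyT τ hr h1).measurable, Measure.ext fun E hE => ?_⟩
  rw [Measure.map_apply (skyT τ hr h1).measurable hE,
    skyM_apply ν hr ((skyT τ hr h1).measurable hE), skyM_apply ν hr hE]
  have hA : MeasurableSet (τ ⁻¹' (slice E 0)) := τ.measurable (measurableSet_slice hr hE 0)
  have hr2 : ∀ i, MeasurableSet {x | r x = i + 1} := fun i => hr (measurableSet_singleton _)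
  have e1 : ∀ i, ν (slice ((skyT τ hr h1) ⁻¹' E) i) =
      ν (slice E (i + 1)) + ν ({x | r x = i + 1} ∩ τ ⁻¹' (slice E 0)) := by
    intro i
    rw [slice_preimage, measure_union _ ((hr2 i).inter hA)]
    rw [Set.disjoint_left]
    rintro x ⟨h, -⟩ ⟨h2, -⟩
    have h3 : r x = i + 1 := h2
    omega
  simp only [e1]
  rw [ENNReal.tsum_add, tsum_eq_zero_add' (f := fun i => ν (slice E i)) ENNReal.summable,
    add_comm]
  congr 1
  rw [← measure_iUnion]
  · rw [← hτ.measure_preimage (measurableSet_slice hr hE 0).nullMeasurableSet]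
    congr 1
    ext x
    simp only [Set.mem_iUnion]
    constructor
    · rintro ⟨i, -, h⟩
      exact h
    · intro h
      have h2 := h1 x
      refine ⟨r x - 1, ?_, h⟩
      change r x = r x - 1 + 1
      omega
  · intro i j hij
    rw [Function.onFun, Set.disjoint_left]
    rintro x ⟨h2, -⟩ ⟨h3, -⟩
    have h4 : r x = i + 1 := h2
    have h5 : r x = j + 1 := h3
    omega
  · exact fun i => (hr2 i).inter hA

theorem nullSingleton_sky {ν : Measure X} [SFinite ν] [NullSingletonClass ν]
    [MeasurableSingletonClass X] {r : X → ℕ} (hr : Measurable r) :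
    NullSingletonClass (skyM ν r) := by
  refine ⟨fun p => ?_⟩
  have hp : MeasurableSet ({p} : Set (Sky r)) := by
    have h2 : ({p} : Set (Sky r)) = (fun q : Sky r => q.1) ⁻¹' {p.1} := by
      ext q
      simp only [Set.mem_singleton_iff, Set.mem_preimage]
      exact Subtype.ext_iff
    rw [h2]
    exact measurable_subtype_coe (measurableSet_singleton p.1)
  rw [skyM_apply ν hr hp, ENNReal.tsum_eq_zero]
  intro i
  refine measure_mono_null (t := {p.1.1}) ?_ (measure_singleton _)
  rintro x ⟨h, h2⟩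
  rw [Set.mem_singleton_iff] at h2 ⊢
  rw [← h2]
  rfl

/-- the normalized measure -/
noncomputable def skyP (ν : Measure X) (r : X → ℕ) : Measure (Sky r) :=
  (∫⁻ x, (r x : ℝ≥0∞) ∂ν)⁻¹ • skyM ν r

theorem isProb_skyP {ν : Measure X} [SFinite ν] {r : X → ℕ} (hr : Measurable r)
    (h0 : ∫⁻ x, (r x : ℝ≥0∞) ∂ν ≠ 0) (hf : ∫⁻ x, (r x : ℝ≥0∞) ∂ν ≠ ⊤) :
    IsProbabilityMeasure (skyP ν r) := by
  refine ⟨?_⟩
  unfold skyP
  rw [Measure.smul_apply, skyM_univ ν hr, smul_eq_mul, ENNReal.inv_mul_cancel h0 hf]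

theorem measurePreserving_skyP {ν : Measure X} [SFinite ν] {τ : X ≃ᵐ X}
    (hτ : MeasurePreserving τ ν ν) {r : X → ℕ} (hr : Measurable r) (h1 : ∀ x, 0 < r x) :
    MeasurePreserving (skyT τ hr h1) (skyP ν r) (skyP ν r) :=
  (measurePreserving_skyT hτ hr h1).smul_measure _

theorem nullSingleton_skyP {ν : Measure X} [SFinite ν] [NullSingletonClass ν]
    [MeasurableSingletonClass X] {r : X → ℕ} (hr : Measurable r) :
    NullSingletonClass (skyP ν r) := by
  refine ⟨fun p => ?_⟩
  have := (nullSingleton_sky (ν := ν) hr).measure_singleton p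
  unfold skyP
  rw [Measure.smul_apply, this, smul_zero]

end P130B
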