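import Vale.Agent.Lib.P130.Odo
import Vale.Agent.Lib.P130B.T.Sky

/-!
# P130B: the levels of the towers are total

An integrable function on a skyscraper over the odometer whose integrals over the sets
`{(x, i) : idx n x = l}`, `l + 1 < M n`, vanish is zero almost everywhere.
-/

open MeasureTheory Filter Topology
open scoped ENNReal

namespace P130B

open P130

variable (B : Blk) (r : B.X → ℕ)

/-- the points `(x, i)` with `idx n x = l` -/
def cell (n l i : ℕ) : Set (Sky r) := {p | B.idx n p.1.1 = l ∧ p.1.2 = i}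

theorem measurableSet_cell (n l i : ℕ) : MeasurableSet (cell B r n l i) := by
  have hv : Measurable fun p : Sky r => p.1 := measurable_subtype_coe
  have h1 : MeasurableSet {p : Sky r | B.idx n p.1.1 = l} :=
    ((B.measurable_idx n).comp (measurable_fst.comp hv)) (measurableSet_singleton l)
  have h2 : MeasurableSet {p : Sky r | p.1.2 = i} :=
    (measurable_snd.comp hv) (measurableSet_singleton i)
  exact h1.inter h2

theorem cell_inter {n n' : ℕ} (hn : n ≤ n') (l l' i i' : ℕ) :
    cell B r n l i ∩ cell B r n' l' i' = cell B r n' l' i' ∨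
      cell B r n l i ∩ cell B r n' l' i' = ∅ := by
  by_cases h : l' % B.M n = l ∧ i = i'
  · left
    refine Set.inter_eq_right.2 ?_
    rintro p ⟨h1, h2⟩
    refine ⟨?_, by rw [h2, h.2]⟩
    rw [← B.idx_mod hn, h1, h.1]
  · right
    refine Set.eq_empty_iff_forall_notMem.2 ?_
    rintro p ⟨⟨h1, h2⟩, h3, h4⟩
    refine h ⟨?_, h2.symm.trans h4⟩
    rw [← h1, ← B.idx_mod hn, h3]

theorem cell_pi : IsPiSystem {s : Set (Sky r) | s = ∅ ∨ ∃ n l i, s = cell B r n l i} := by
  rintro s (rfl | ⟨n, l, i, rfl⟩) t (rfl | ⟨n', l', i', rfl⟩) -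
  · left; simp
  · left; simp
  · left; simp
  · rcases le_total n n' with h | h
    · rcases cell_inter B r h l l' i i' with h1 | h1
      · right
        exact ⟨n', l', i', h1⟩
      · left
        exact h1
    · rcases cell_inter B r h l' l i' i with h1 | h1
      · right
        rw [Set.inter_comm] at h1
        exact ⟨n, l, i, h1⟩
      · left
        rw [Set.inter_comm] at h1
        exact h1

theorem cell_gen : (inferInstance : MeasurableSpace (Sky r)) =
    MeasurableSpace.generateFrom {s : Set (Sky r) | s = ∅ ∨ ∃ n l i, s = cell B r n l i} := by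
  refine le_antisymm ?_ ?_
  · let m' : MeasurableSpace (Sky r) :=
      MeasurableSpace.generateFrom {s : Set (Sky r) | s = ∅ ∨ ∃ n l i, s = cell B r n l i}
    have hg : ∀ n l i, @MeasurableSet _ m' (cell B r n l i) := fun n l i =>
      MeasurableSpace.measurableSet_generateFrom (Or.inr ⟨n, l, i, rfl⟩)
    have hb : @Measurable _ _ m' _ (fun p : Sky r => p.1.2) := by
      refine @measurable_to_countable' _ _ _ _ m' _ fun i => ?_
      have h1 : (fun p : Sky r => p.1.2) ⁻¹' {i} = cell B r 0 0 i := by
        ext p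
        constructor
        · intro h
          refine ⟨?_, h⟩
          have := B.idx_lt 0 p.1.1
          rw [B.M_zero] at this
          omega
        · exact fun h => h.2
      rw [h1]
      exact hg 0 0 i
    have hc : ∀ n, @Measurable _ _ m' _ (fun p : Sky r => p.1.1.1 n) := by
      intro n
      refine @measurable_to_countable' _ _ _ _ m' _ fun z => ?_
      have h1 : (fun p : Sky r => p.1.1.1 n) ⁻¹' {z} = ⋃ i, cell B r n z.val i := by
        ext p
        simp only [Set.mem_preimage, Set.mem_singleton_iff, Set.mem_iUnion]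
        constructor
        · intro h
          refine ⟨p.1.2, ?_, rfl⟩
          unfold Blk.idx
          rw [h]
        · rintro ⟨i, h, -⟩
          exact ZMod.val_injective _ h
      rw [h1]
      exact @MeasurableSet.iUnion _ _ m' _ _ fun i => hg n _ i
    have ha : @Measurable _ _ m' _ (fun p : Sky r => p.1.1) := by
      have h1 : @Measurable _ _ m' _ (fun p : Sky r => p.1.1.1) :=
        @measurable_pi_lambda _ _ _ m' _ _ hc
      exact @Measurable.subtype_mk _ _ m' _ _ _ h1 (fun p => p.1.1.2)
    have hd : @Measurable _ _ m' _ (fun p : Sky r => (p.1.1, p.1.2)) := by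
      exact ha.prodMk hb
    intro s hs
    obtain ⟨t, ht, rfl⟩ := hs
    exact hd ht
  · refine MeasurableSpace.generateFrom_le ?_
    rintro s (rfl | ⟨n, l, i, rfl⟩)
    · exact MeasurableSet.empty
    · exact measurableSet_cell B r n l i

variable {B r} {μ : Measure (Sky r)} [IsFiniteMeasure μ] {f : Sky r → ℂ}

theorem cell_split {n N : ℕ} (hn : n ≤ N) (l i : ℕ) : cell B r n l i =
    ⋃ l' ∈ (Finset.range (B.M N)).filter (fun l' => l' % B.M n = l), cell B r N l' i := by
  ext p
  simp only [Set.mem_iUnion, Finset.mem_filter, Finset.mem_range, exists_prop]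
  constructor
  · rintro ⟨h1, h2⟩
    exact ⟨B.idx N p.1.1, ⟨B.idx_lt N _, by rw [B.idx_mod hn, h1]⟩, rfl, h2⟩
  · rintro ⟨l', ⟨-, h⟩, h1, h2⟩
    exact ⟨by rw [← B.idx_mod hn, h1, h], h2⟩

omit [IsFiniteMeasure μ] in
theorem int_last (hf : Integrable f μ)
    (h : ∀ n l i, l + 1 < B.M n → ∫ p in cell B r n l i, f p ∂μ = 0) {n N : ℕ} (hn : n ≤ N)
    (i : ℕ) : ∫ p in cell B r n (B.M n - 1) i, f p ∂μ =
      ∫ p in cell B r N (B.M N - 1) i, f p ∂μ := by
  rw [cell_split hn (B.M n - 1) i, integral_biUnion_finset]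
  · rw [Finset.sum_eq_single (B.M N - 1)]
    · intro l' hl' hne
      rw [Finset.mem_filter, Finset.mem_range] at hl'
      exact h N l' i (by omega)
    · intro hnot
      exfalso
      apply hnot
      rw [Finset.mem_filter, Finset.mem_range]
      have h1 := B.M_pos N
      have h2 := B.M_pos n
      refine ⟨by omega, ?_⟩
      obtain ⟨c, hc⟩ := B.M_dvd hn
      have hc1 : 1 ≤ c := by
        rcases Nat.eq_zero_or_pos c with h3 | h3
        · rw [h3, mul_zero] at hc
          omega
        · exact h3
      obtain ⟨d, rfl⟩ : ∃ d, c = d + 1 := ⟨c - 1, by omega⟩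
      have h4 : B.M N - 1 = (B.M n - 1) + B.M n * d := by
        rw [hc, mul_add, mul_one]
        omega
      rw [h4, Nat.add_mul_mod_self_left, Nat.mod_eq_of_lt (by omega)]
  · exact fun l' _ => measurableSet_cell B r N l' i
  · intro a _ b _ hab
    rw [Function.onFun, Set.disjoint_left]
    rintro p ⟨h1, -⟩ ⟨h2, -⟩
    exact hab (h1.symm.trans h2)
  · exact fun _ _ => hf.integrableOn

omit [IsFiniteMeasure μ] in
theorem int_last_zero (hμ : ∀ x : B.X, μ {p | p.1.1 = x} = 0) (hf : Integrable f μ)
    (h : ∀ n l i, l + 1 < B.M n → ∫ p in cell B r n l i, f p ∂μ = 0) (n i : ℕ) :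
    ∫ p in cell B r n (B.M n - 1) i, f p ∂μ = 0 := by
  let E : ℕ → Set (Sky r) := fun N => cell B r (n + N) (B.M (n + N) - 1) i
  have hanti : Antitone E := by
    intro a b hab
    rintro p ⟨h1, h2⟩
    refine ⟨?_, h2⟩
    have h3 : n + a ≤ n + b := by omega
    rw [← B.idx_mod h3, h1]
    have h4 := B.M_pos (n + a)
    have h5 := B.M_pos (n + b)
    obtain ⟨c, hc⟩ := B.M_dvd h3
    have hc1 : 1 ≤ c := by
      rcases Nat.eq_zero_or_pos c with h6 | h6
      · rw [h6, mul_zero] at hc
        omega
      · exact h6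
    obtain ⟨d, rfl⟩ : ∃ d, c = d + 1 := ⟨c - 1, by omega⟩
    have h7 : B.M (n + b) - 1 = (B.M (n + a) - 1) + B.M (n + a) * d := by
      rw [hc, mul_add, mul_one]
      omega
    rw [h7, Nat.add_mul_mod_self_left, Nat.mod_eq_of_lt (by omega)]
  have h1 := tendsto_setIntegral_of_antitone (μ := μ) (f := f)
    (fun N => measurableSet_cell B r (n + N) (B.M (n + N) - 1) i) hanti ⟨0, hf.integrableOn⟩
  have h2 : ∀ N, ∫ p in E N, f p ∂μ = ∫ p in cell B r n (B.M n - 1) i, f p ∂μ :=
    fun N => (int_last hf h (Nat.le_add_right n N) i).symm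
  have h3 : μ (⋂ N, E N) = 0 := by
    rcases Set.eq_empty_or_nonempty (⋂ N, E N) with h4 | ⟨p, hp⟩
    · rw [h4, measure_empty]
    · refine measure_mono_null ?_ (hμ p.1.1)
      intro q hq
      rw [Set.mem_iInter] at hp hq
      change q.1.1 = p.1.1
      refine B.ext_idx fun k => ?_
      have e1 := (hp k).1
      have e2 := (hq k).1
      rw [← B.idx_mod (Nat.le_add_left k n), ← B.idx_mod (Nat.le_add_left k n) p.1.1, e1, e2]
  have h4 : ∫ p in ⋂ N, E N, f p ∂μ = 0 := setIntegral_measure_zero _ h3
  have h5 : Tendsto (fun N => ∫ p in E N, f p ∂μ) atTop (𝓝 (∫ p in ⋂ N, E N, f p ∂μ)) := h1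
  rw [h4] at h5
  simp only [h2] at h5
  exact tendsto_nhds_unique tendsto_const_nhds h5

/-- the levels of the towers are total -/
theorem dense_cell (hμ : ∀ x : B.X, μ {p | p.1.1 = x} = 0) (hf : Integrable f μ)
    (h : ∀ n l i, l + 1 < B.M n → ∫ p in cell B r n l i, f p ∂μ = 0) : f =ᵐ[μ] 0 := by
  have hall : ∀ n l i, ∫ p in cell B r n l i, f p ∂μ = 0 := by
    intro n l i
    rcases lt_trichotomy (l + 1) (B.M n) with h1 | h1 | h1
    · exact h n l i h1
    · have h2 : l = B.M n - 1 := by omega
      rw [h2]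
      exact int_last_zero hμ hf h n i
    · have h2 : cell B r n l i = ∅ := by
        refine Set.eq_empty_iff_forall_notMem.2 ?_
        rintro p ⟨h3, -⟩
        have := B.idx_lt n p.1.1
        omega
      rw [h2, setIntegral_empty]
  have htot : ∫ p, f p ∂μ = 0 := by
    have h1 : (⋃ i, cell B r 0 0 i) = Set.univ := by
      refine Set.eq_univ_of_forall fun p => ?_
      rw [Set.mem_iUnion]
      refine ⟨p.1.2, ?_, rfl⟩
      have := B.idx_lt 0 p.1.1
      rw [B.M_zero] at this
      omega
    rw [← setIntegral_univ, ← h1, integral_iUnion (fun i => measurableSet_cell B r 0 0 i)]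
    · simp only [hall, tsum_zero]
    · intro a b hab
      rw [Function.onFun, Set.disjoint_left]
      rintro p ⟨-, h2⟩ ⟨-, h3⟩
      exact hab (h2.symm.trans h3)
    · exact hf.integrableOn
  refine hf.ae_eq_zero_of_forall_setIntegral_eq_zero fun s hs _ => ?_
  refine MeasurableSpace.induction_on_inter (C := fun s _ => ∫ p in s, f p ∂μ = 0)
    (cell_gen B r) (cell_pi B r) ?_ ?_ ?_ ?_ s hs
  · exact setIntegral_empty
  · rintro t (rfl | ⟨n, l, i, rfl⟩)
    · exact setIntegral_empty
    · exact hall n l i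
  · intro t ht h1
    have h2 := integral_add_compl ht hf
    rw [h1, htot, zero_add] at h2
    exact h2
  · intro g hg hgm h1
    rw [integral_iUnion hgm hg hf.integrableOn]
    simp only [h1, tsum_zero]

/-- fibres of the skyscraper are null sets -/
theorem fibre_null [NullSingletonClass B.muX] (hr : Measurable r) (x : B.X) :
    skyP B.muX r {p | p.1.1 = x} = 0 := by
  have hm : MeasurableSet {p : Sky r | p.1.1 = x} := by
    have hv : Measurable fun p : Sky r => p.1 := measurable_subtype_coe
    exact (measurable_fst.comp hv) (measurableSet_singleton x)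
  unfold skyP
  rw [Measure.smul_apply, skyM_apply B.muX hr hm]
  have h1 : ∑' i, B.muX (slice {p : Sky r | p.1.1 = x} i) = 0 := by
    rw [ENNReal.tsum_eq_zero]
    intro i
    refine measure_mono_null (t := {x}) ?_ (measure_singleton _)
    rintro y ⟨_, h2⟩
    exact h2
  rw [h1, smul_zero]

end P130B
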