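import Vale.Agent.Lib.P130B.T.Hilb
import Vale.Agent.Lib.P130B.T.DenseA

/-!
# P130B T: the level vectors are total
-/

open MeasureTheory Filter Topology
open scoped ENNReal

namespace P130B

namespace RK

variable (R : RK)

private theorem pos_mono' (n : ℕ) {a b : ℕ} (hab : a ≤ b) (hb : b < R.M n) :
    R.pos n a ≤ R.pos n b := by
  induction b, hab using Nat.le_induction with
  | base => exact le_rfl
  | succ b hb' ih =>
    exact (ih (by omega)).trans (R.pos_lt_succ n b hb).le

/-- a nonempty cell is a level of the tower -/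
private theorem cell_eq (n l i : ℕ) (hl : l + 1 < R.M n) (hi : R.pos n l + i < R.pos n (l + 1)) :
    cell R.blk R.r n l i = {y : R.Y | R.lev n y = R.pos n l + i} := by
  ext y
  constructor
  · rintro ⟨h1, h2⟩
    change R.pos n (R.idx n y.1.1) + y.1.2 = R.pos n l + i
    rw [h2, show R.idx n y.1.1 = l from h1]
  · intro h1
    have h1' : R.pos n (R.idx n y.1.1) + y.1.2 = R.pos n l + i := h1
    have hq : R.idx n y.1.1 < R.M n := R.blk.idx_lt n _
    have hy : y.1.2 < R.r y.1.1 := y.2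
    rcases lt_trichotomy (R.idx n y.1.1) l with h2 | h2 | h2
    · exfalso
      have h3 := R.r_eq n y.1.1 (by omega)
      have h4 := R.pos_mono' n (a := R.idx n y.1.1 + 1) (b := l) (by omega) (by omega)
      omega
    · refine ⟨h2, ?_⟩
      rw [h2] at h1'
      omega
    · exfalso
      have h4 := R.pos_mono' n (a := l + 1) (b := R.idx n y.1.1) (by omega) hq
      omega

private theorem cell_empty (n l i : ℕ) (hl : l + 1 < R.M n) (hi : R.pos n (l + 1) ≤ R.pos n l + i) :
    cell R.blk R.r n l i = ∅ := by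
  refine Set.eq_empty_iff_forall_notMem.2 ?_
  rintro y ⟨h1, h2⟩
  have hy : y.1.2 < R.r y.1.1 := y.2
  have h1' : R.idx n y.1.1 = l := h1
  have h3 := R.r_eq n y.1.1 (by omega)
  rw [h1'] at h3
  omega

private theorem inner_level (n k : ℕ) (f : Lp ℂ 2 R.mu) :
    (inner ℂ (R.e n k) f : ℂ) =
      ((Real.sqrt (R.c n))⁻¹ : ℂ) * ∫ y in {y | R.lev n y = k}, f y ∂(R.mu) := by
  have hms : MeasurableSet {y | R.lev n y = k} :=
    R.measurable_lev n (measurableSet_singleton k)
  rw [L2.inner_def, ← integral_const_mul, ← integral_indicator hms]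
  refine integral_congr_ae ?_
  have h1 : (R.e n k : R.Y → ℂ) =ᵐ[R.mu] R.E n k := (R.memLp_E n k).coeFn_toLp
  filter_upwards [h1] with y hy
  rw [hy]
  by_cases h2 : R.lev n y = k
  · rw [Set.indicator_of_mem (show y ∈ {y | R.lev n y = k} from h2)]
    unfold E
    rw [if_pos h2, RCLike.inner_apply, map_inv₀, Complex.conj_ofReal, mul_comm]
  · rw [Set.indicator_of_notMem (show y ∉ {y | R.lev n y = k} from h2)]
    unfold E
    rw [if_neg h2, inner_zero_left]

/-- For `f` orthogonal to all level vectors: the integral of `f` over every level vanishes, hence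
(limit `N → ∞`, the levels `pos N q + i`, `q + 1 < M N`, `q % M n = q0`) over every set
`{(x, i) : idx n x = q0}`; these sets generate. -/
theorem dense_e : (Submodule.span ℂ {f : Lp ℂ 2 R.mu | ∃ n k, k < R.h n ∧ f = R.e n k}).topologicalClosure
    = ⊤ := by
  rw [Submodule.topologicalClosure_eq_top_iff, Submodule.eq_bot_iff]
  intro f hf
  have hin : ∀ n k, k < R.h n → (inner ℂ (R.e n k) f : ℂ) = 0 := by
    intro n k hk
    exact (Submodule.mem_orthogonal _ _).1 hf _ (Submodule.subset_span ⟨n, k, hk, rfl⟩)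
  have hlev : ∀ n k, k < R.h n → ∫ y in {y | R.lev n y = k}, f y ∂(R.mu) = 0 := by
    intro n k hk
    have h1 := hin n k hk
    rw [R.inner_level n k f] at h1
    rcases mul_eq_zero.1 h1 with h2 | h2
    · exfalso
      have h3 : Real.sqrt (R.c n) ≠ 0 := (Real.sqrt_pos.2 (R.c_pos n)).ne'
      exact (inv_ne_zero (Complex.ofReal_ne_zero.2 h3)) h2
    · exact h2
  have hfi : Integrable (f : R.Y → ℂ) R.mu := (Lp.memLp f).integrable (by norm_num)
  have hz : (f : R.Y → ℂ) =ᵐ[R.mu] 0 := by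
    refine dense_cell (B := R.blk) (r := R.r) (μ := R.mu) ?_ hfi ?_
    · intro x
      unfold mu
      rw [Measure.smul_apply, R.nu_col, smul_zero]
    · intro n l i hl
      rcases lt_or_ge (R.pos n l + i) (R.pos n (l + 1)) with hi | hi
      · rw [R.cell_eq n l i hl hi]
        exact hlev n _ (hi.trans (R.pos_lt n (l + 1) hl))
      · rw [R.cell_empty n l i hl hi, setIntegral_empty]
  exact (Lp.eq_zero_iff_ae_eq_zero).2 hz

end RK

/-- **rank one transformations** -/
theorem exists_rank_one (R : RK) : ∃ (Y : Type) (_ : MeasurableSpace Y) (_ : StandardBorelSpace Y)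
    (μ : Measure Y) (_ : IsProbabilityMeasure μ) (_ : NullSingletonClass μ) (T : Y ≃ᵐ Y)
    (hT : MeasurePreserving T μ μ) (e : ℕ → ℕ → Lp ℂ 2 μ) (c : ℕ → ℝ),
    (∀ n k k', k < R.h n → k' < R.h n → (inner ℂ (e n k) (e n k') : ℂ) = if k = k' then 1 else 0) ∧
    (∀ n k, k + 1 < R.h n → Lp.compMeasurePreserving T hT (e n k) = e n (k + 1)) ∧
    (∀ n k, k < R.h n → e n k = ((Real.sqrt (R.m n))⁻¹ : ℂ) •
      ∑ j ∈ Finset.range (R.m n), e (n + 1) (R.p n j + k)) ∧
    (Submodule.span ℂ {f : Lp ℂ 2 μ | ∃ n k, k < R.h n ∧ f = e n k}).topologicalClosure = ⊤ ∧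
    (∀ n k, k < R.h n → ∫ y, (e n k : Y → ℂ) y ∂μ = (Real.sqrt (c n) : ℂ)) ∧
    (∀ n, 0 < c n) ∧ Tendsto (fun n => c n * R.h n) atTop (𝓝 1) :=
  ⟨R.Y, inferInstance, inferInstance, R.mu, inferInstance, inferInstance, R.T, R.mp_T, R.e, R.c,
    R.inner_e, R.U_e, R.e_refine, R.dense_e, R.integral_e, R.c_pos, R.tendsto_c⟩

end P130B
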