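import Vale.Agent.Lib.P130B.T.Defs

/-!
# P130B T: positions (pure combinatorics, inductions on `n`)
-/

namespace P130B

namespace RK

variable (R : RK)

theorem pos_zero (n : ℕ) : R.pos n 0 = 0 := by
  induction n with
  | zero => rfl
  | succ n ih =>
    change R.pos n (0 % R.M n) + R.p n (0 / R.M n) = 0
    rw [Nat.zero_mod, Nat.zero_div, ih, R.p0]

theorem p_add_le (n j j' : ℕ) (hj : j < j') (hj' : j' < R.m n) : R.p n j + R.h n ≤ R.p n j' := by
  induction j' with
  | zero => omega
  | succ k ih =>
    have h1 := R.hp n k hj'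
    rcases Nat.lt_or_ge j k with hk | hk
    · have h2 := ih hk (by omega)
      omega
    · have h3 : j = k := by omega
      subst h3
      exact h1

theorem p_le_h (n j : ℕ) (hj : j < R.m n) : R.p n j + R.h n ≤ R.h (n + 1) := by
  have h1 := R.hlast n
  rcases Nat.lt_or_ge j (R.m n - 1) with hk | hk
  · have h2 := R.p_add_le n j (R.m n - 1) hk (by omega)
    omega
  · have h3 : j = R.m n - 1 := by omega
    rw [h3]
    exact h1

private theorem M_pos' (n : ℕ) : 0 < R.M n := R.blk.M_pos n

private theorem M_succ' (n : ℕ) : R.M (n + 1) = R.M n * R.m n := R.blk.M_succ n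

private theorem div_lt' {n q : ℕ} (hq : q < R.M (n + 1)) : q / R.M n < R.m n := by
  rw [M_succ'] at hq
  exact Nat.div_lt_of_lt_mul hq

private theorem pos_succ' (n q : ℕ) :
    R.pos (n + 1) q = R.pos n (q % R.M n) + R.p n (q / R.M n) := rfl

theorem pos_lt (n q : ℕ) (hq : q < R.M n) : R.pos n q < R.h n := by
  induction n generalizing q with
  | zero =>
    rw [R.h0]
    exact Nat.zero_lt_one
  | succ n ih =>
    rw [pos_succ']
    have h1 := ih (q % R.M n) (Nat.mod_lt _ (M_pos' R n))
    have h2 := R.p_le_h n (q / R.M n) (div_lt' R hq)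
    omega

/-- division of the successor, no carry -/
private theorem succ_no {a M : ℕ} (h : a % M + 1 < M) :
    (a + 1) % M = a % M + 1 ∧ (a + 1) / M = a / M := by
  have hM : 0 < M := by omega
  have h1 := Nat.div_add_mod a M
  constructor
  · rw [Nat.add_mod, Nat.mod_eq_of_lt (show 1 < M by omega), Nat.mod_eq_of_lt h]
  · rw [Nat.succ_div, if_neg, add_zero]
    intro hd
    have h2 := Nat.mod_eq_zero_of_dvd hd
    rw [Nat.add_mod, Nat.mod_eq_of_lt (show 1 < M by omega), Nat.mod_eq_of_lt h] at h2
    omega

/-- division of the successor, carry -/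
private theorem succ_carry {a M : ℕ} (h : a % M + 1 = M) :
    (a + 1) % M = 0 ∧ (a + 1) / M = a / M + 1 := by
  have hM : 0 < M := by omega
  have hd : M ∣ a + 1 := by
    have h1 := Nat.div_add_mod a M
    refine ⟨a / M + 1, ?_⟩
    rw [mul_add, mul_one]
    omega
  constructor
  · exact Nat.mod_eq_zero_of_dvd hd
  · rw [Nat.succ_div, if_pos hd]

theorem pos_lt_succ (n q : ℕ) (hq : q + 1 < R.M n) : R.pos n q < R.pos n (q + 1) := by
  induction n generalizing q with
  | zero =>
    have : R.M 0 = 1 := R.blk.M_zero
    omega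
  | succ n ih =>
    rw [pos_succ', pos_succ']
    have hlt : q % R.M n < R.M n := Nat.mod_lt _ (M_pos' R n)
    rcases Nat.lt_or_ge (q % R.M n + 1) (R.M n) with hc | hc
    · obtain ⟨e1, e2⟩ := succ_no hc
      rw [e1, e2]
      have := ih (q % R.M n) hc
      omega
    · have hc' : q % R.M n + 1 = R.M n := by omega
      obtain ⟨e1, e2⟩ := succ_carry hc'
      rw [e1, e2, R.pos_zero]
      have h1 := R.pos_lt n (q % R.M n) hlt
      have h2 := div_lt' R hq
      rw [e2] at h2
      have h3 := R.hp n (q / R.M n) h2
      omega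

private theorem M_dvd' {n N : ℕ} (h : n ≤ N) : R.M n ∣ R.M N := R.blk.M_dvd h

/-- the gap between two consecutive copies does not depend on the tower -/
theorem pos_stab (n N q : ℕ) (hn : n ≤ N) (hN : q < R.M N) (hq : q % R.M n + 1 < R.M n) :
    R.pos N (q + 1) + R.pos n (q % R.M n) = R.pos N q + R.pos n (q % R.M n + 1) := by
  induction N, hn using Nat.le_induction generalizing q with
  | base => rw [Nat.mod_eq_of_lt hN, add_comm]
  | succ N hnN ih =>
    rw [pos_succ', pos_succ']
    have hmm : q % R.M N % R.M n = q % R.M n := Nat.mod_mod_of_dvd _ (M_dvd' R hnN)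
    have hlt : q % R.M N < R.M N := Nat.mod_lt _ (M_pos' R N)
    have hc : q % R.M N + 1 < R.M N := by
      rcases Nat.lt_or_ge (q % R.M N + 1) (R.M N) with hc | hc
      · exact hc
      · exfalso
        have h1 : q % R.M N + 1 = R.M N := by omega
        obtain ⟨c, hcc⟩ := M_dvd' R hnN
        have h2 : R.M n ∣ q % R.M N + 1 := by
          rw [h1]
          exact M_dvd' R hnN
        have h3 := (succ_no (a := q % R.M N) (M := R.M n) (by rw [hmm]; exact hq)).1
        rw [Nat.mod_eq_zero_of_dvd h2] at h3
        omega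
    obtain ⟨e1, e2⟩ := succ_no hc
    rw [e1, e2]
    have h4 := ih (q % R.M N) hlt (by rw [hmm]; exact hq)
    rw [hmm] at h4
    omega

/-- after the last copy of tower `0` in a copy of tower `n` the next copy starts after the end of
this copy of tower `n` -/
theorem pos_last (n N q : ℕ) (hn : n ≤ N) (hN : q + 1 < R.M N) (hq : q % R.M n + 1 = R.M n) :
    R.pos N q + R.h n ≤ R.pos N (q + 1) + R.pos n (q % R.M n) := by
  induction N, hn using Nat.le_induction generalizing q with
  | base =>
    exfalso
    rw [Nat.mod_eq_of_lt (by omega)] at hq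
    omega
  | succ N hnN ih =>
    rw [pos_succ', pos_succ']
    have hmm : q % R.M N % R.M n = q % R.M n := Nat.mod_mod_of_dvd _ (M_dvd' R hnN)
    have hlt : q % R.M N < R.M N := Nat.mod_lt _ (M_pos' R N)
    rcases Nat.lt_or_ge (q % R.M N + 1) (R.M N) with hc | hc
    · obtain ⟨e1, e2⟩ := succ_no hc
      rw [e1, e2]
      have h4 := ih (q % R.M N) hc (by rw [hmm]; exact hq)
      rw [hmm] at h4
      omega
    · have hc' : q % R.M N + 1 = R.M N := by omega
      obtain ⟨e1, e2⟩ := succ_carry hc'
      rw [e1, e2, R.pos_zero]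
      have h2 := div_lt' R hN
      rw [e2] at h2
      have h3 := R.hp N (q / R.M N) h2
      have hpos : ∀ K : ℕ, n ≤ K → R.pos K (R.M K - 1) + R.h n ≤ R.h K + R.pos n (R.M n - 1) := by
        intro K hK
        induction K, hK using Nat.le_induction with
        | base => omega
        | succ K hnK ihK =>
          rw [pos_succ']
          have hMK := M_pos' R K
          have hm2 := R.hm K
          have e3 : R.M (K + 1) - 1 = R.M K * (R.m K - 1) + (R.M K - 1) := by
            rw [M_succ']
            have : R.M K * R.m K = R.M K * (R.m K - 1) + R.M K := by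
              conv_lhs => rw [show R.m K = (R.m K - 1) + 1 by omega]
              ring
            omega
          have e4 : (R.M (K + 1) - 1) % R.M K = R.M K - 1 := by
            rw [e3, Nat.mul_add_mod, Nat.mod_eq_of_lt (by omega)]
          have e5 : (R.M (K + 1) - 1) / R.M K = R.m K - 1 := by
            rw [e3, Nat.mul_add_div hMK, Nat.div_eq_of_lt (by omega), add_zero]
          rw [e4, e5]
          have h5 := R.hlast K
          omega
      have h6 := hpos N hnN
      have h7 : q % R.M N = R.M N - 1 := by omega
      have h8 : q % R.M n = R.M n - 1 := by omega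
      rw [h7, h8]
      omega

end RK

end P130B
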