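import Mathlib
import Vale.Agent.Lib.P130.Odo
import Vale.Agent.Lib.P130B.T.Sky

/-!
# P130B T: a rank one transformation as a suspension over an odometer, definitions

`h n` is the height of tower `n`, `p n j` the position of the `j`-th copy of tower `n` in tower
`n + 1` (`j < m n`).  The base is the odometer `X` of `Lib/P130` (`idx n x < M n = m 0 ⋯ m (n-1)`),
the column over `x` has `r x` points; `(x, i)` is the point number `i` of the column, and `T` goes
down: `T (x, i + 1) = (x, i)`, `T (x, 0) = (x - one, r (x - one) - 1)`.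
-/

open MeasureTheory Filter Topology
open scoped ENNReal

namespace P130B

/-- rank one data -/
structure RK where
  /-- cutting numbers -/
  m : ℕ → ℕ
  hm : ∀ n, 2 ≤ m n
  /-- heights -/
  h : ℕ → ℕ
  /-- positions of the copies -/
  p : ℕ → ℕ → ℕ
  h0 : h 0 = 1
  p0 : ∀ n, p n 0 = 0
  hp : ∀ n j, j + 1 < m n → p n j + h n ≤ p n (j + 1)
  hlast : ∀ n, p n (m n - 1) + h n ≤ h (n + 1)
  /-- finite measure -/
  C : ℕ
  hC : ∀ n, h n ≤ C * ∏ i ∈ Finset.range n, m i

namespace RK

variable (R : RK)

/-- the odometer data -/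
def blk : P130.Blk := ⟨R.m, R.hm, fun _ _ => 0, fun _ _ => 1⟩

/-- number of copies of tower `0` in tower `n` -/
abbrev M (n : ℕ) : ℕ := R.blk.M n

/-- the odometer -/
abbrev X : Type := R.blk.X

/-- index of the copy of tower `0` inside tower `n` -/
abbrev idx (n : ℕ) (x : R.X) : ℕ := R.blk.idx n x

/-- position in tower `n` of the copy number `q` of tower `0`, `q < M n` -/
def pos : ℕ → ℕ → ℕ
  | 0, _ => 0
  | n + 1, q => pos n (q % R.M n) + R.p n (q / R.M n)

open Classical in
/-- number of points in the column over `x` -/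
noncomputable def r (x : R.X) : ℕ :=
  if hx : ∃ n, R.idx n x + 1 < R.M n then
    R.pos (Nat.find hx) (R.idx (Nat.find hx) x + 1) - R.pos (Nat.find hx) (R.idx (Nat.find hx) x)
  else 1

/-- the phase space -/
abbrev Y : Type := Sky R.r

/-- level in tower `n` (meaningful if it is `< h n`) -/
def lev (n : ℕ) (y : R.Y) : ℕ := R.pos n (R.idx n y.1.1) + y.1.2

end RK

end P130B
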