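import Vale.Agent.Lib.P130B.T.Lev

/-!
# P130B T: the probability space and the level vectors
-/

open MeasureTheory Filter Topology
open scoped ENNReal

namespace P130B

namespace RK

variable (R : RK)

/-- the probability measure -/
noncomputable def mu : Measure R.Y := (R.nu Set.univ)⁻¹ • R.nu

instance : IsProbabilityMeasure R.mu := by
  constructor
  unfold mu
  rw [Measure.smul_apply, smul_eq_mul]
  exact ENNReal.inv_mul_cancel R.nu_univ_pos.ne' R.nu_univ_lt.ne

instance : NullSingletonClass R.mu := by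
  refine ⟨fun y => ?_⟩
  unfold mu
  rw [Measure.smul_apply, R.nu_singleton, smul_zero]

theorem mp_T : MeasurePreserving R.T R.mu R.mu := by
  unfold mu
  exact ⟨R.measurePreserving_T.measurable, by
    rw [Measure.map_smul, R.measurePreserving_T.map_eq]⟩

/-- measure of one level of tower `n` -/
noncomputable def c (n : ℕ) : ℝ := (R.mu {y | R.lev n y = 0}).toReal

/-- normalized indicator of level `k` of tower `n` -/
noncomputable def E (n k : ℕ) (y : R.Y) : ℂ :=
  if R.lev n y = k then ((Real.sqrt (R.c n))⁻¹ : ℂ) else 0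

private theorem hilb_ms (n k : ℕ) : MeasurableSet {y : R.Y | R.lev n y = k} :=
  R.measurable_lev n (measurableSet_singleton k)

private theorem hilb_measE (n k : ℕ) : Measurable (R.E n k) := by
  unfold E
  exact Measurable.ite (R.hilb_ms n k) measurable_const measurable_const

private theorem hilb_normE (n k : ℕ) (y : R.Y) : ‖R.E n k y‖ ≤ (Real.sqrt (R.c n))⁻¹ := by
  unfold E
  split_ifs
  · rw [norm_inv, Complex.norm_real, Real.norm_of_nonneg (Real.sqrt_nonneg _)]
  · rw [norm_zero]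
    exact inv_nonneg.2 (Real.sqrt_nonneg _)

theorem memLp_E (n k : ℕ) : MemLp (R.E n k) 2 R.mu :=
  MemLp.of_bound (R.hilb_measE n k).aestronglyMeasurable _
    (Eventually.of_forall (R.hilb_normE n k))

/-- level vectors -/
noncomputable def e (n k : ℕ) : Lp ℂ 2 R.mu := (R.memLp_E n k).toLp _

private theorem hilb_h_pos (n : ℕ) : 0 < R.h n := by
  induction n with
  | zero => rw [R.h0]; exact Nat.zero_lt_one
  | succ n ih =>
    have h1 := R.hlast n
    omega

private theorem hilb_mu (n k : ℕ) (hk : k < R.h n) :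
    R.mu {y | R.lev n y = k} = (R.nu Set.univ)⁻¹ * ((R.M n : ℝ≥0∞))⁻¹ := by
  unfold mu
  rw [Measure.smul_apply, smul_eq_mul, R.nu_lev n k hk]

private theorem hilb_c (n : ℕ) : R.c n = ((R.nu Set.univ)⁻¹ * ((R.M n : ℝ≥0∞))⁻¹).toReal := by
  unfold c
  rw [R.hilb_mu n 0 (R.hilb_h_pos n)]

theorem c_pos (n : ℕ) : 0 < R.c n := by
  rw [R.hilb_c n]
  refine ENNReal.toReal_pos ?_ ?_
  · refine mul_ne_zero ?_ ?_
    · exact ENNReal.inv_ne_zero.2 R.nu_univ_lt.ne
    · exact ENNReal.inv_ne_zero.2 (ENNReal.natCast_ne_top _)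
  · refine ENNReal.mul_ne_top ?_ ?_
    · exact ENNReal.inv_ne_top.2 R.nu_univ_pos.ne'
    · have h1 : R.M n ≠ 0 := (R.blk.M_pos n).ne'
      exact ENNReal.inv_ne_top.2 (by exact_mod_cast h1)

theorem mu_lev (n k : ℕ) (hk : k < R.h n) : (R.mu {y | R.lev n y = k}).toReal = R.c n := by
  rw [R.hilb_mu n k hk, R.hilb_c n]

private theorem hilb_coe (n k : ℕ) : (R.e n k : R.Y → ℂ) =ᵐ[R.mu] R.E n k :=
  (R.memLp_E n k).coeFn_toLp

private theorem hilb_int (n k : ℕ) (hk : k < R.h n) (a : ℂ) :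
    ∫ y, (if R.lev n y = k then a else 0) ∂(R.mu) = (R.c n : ℂ) * a := by
  have h1 : (fun y : R.Y => if R.lev n y = k then a else 0) =
      {y : R.Y | R.lev n y = k}.indicator fun _ => a := by
    funext y
    by_cases h : R.lev n y = k
    · rw [if_pos h, Set.indicator_of_mem (show y ∈ {y : R.Y | R.lev n y = k} from h)]
    · rw [if_neg h, Set.indicator_of_notMem (show y ∉ {y : R.Y | R.lev n y = k} from h)]
  rw [h1, integral_indicator (R.hilb_ms n k), setIntegral_const, Measure.real, R.mu_lev n k hk,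
    Complex.real_smul]

theorem inner_e (n k k' : ℕ) (hk : k < R.h n) (hk' : k' < R.h n) :
    (inner ℂ (R.e n k) (R.e n k') : ℂ) = if k = k' then 1 else 0 := by
  rw [L2.inner_def]
  have h1 : ∫ y, (inner ℂ ((R.e n k : R.Y → ℂ) y) ((R.e n k' : R.Y → ℂ) y) : ℂ) ∂(R.mu) =
      ∫ y, (starRingEnd ℂ) (R.E n k y) * R.E n k' y ∂(R.mu) := by
    apply integral_congr_ae
    filter_upwards [R.hilb_coe n k, R.hilb_coe n k'] with y e1 e2
    rw [e1, e2, RCLike.inner_apply']
  rw [h1]
  by_cases hkk : k = k'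
  · subst hkk
    have hc := R.c_pos n
    have hs : ((Real.sqrt (R.c n) : ℝ) : ℂ) * (Real.sqrt (R.c n) : ℝ) = ((R.c n : ℝ) : ℂ) := by
      rw [← Complex.ofReal_mul, Real.mul_self_sqrt hc.le]
    have h2 : ∀ y : R.Y, (starRingEnd ℂ) (R.E n k y) * R.E n k y =
        if R.lev n y = k then ((R.c n : ℝ) : ℂ)⁻¹ else 0 := by
      intro y
      unfold E
      by_cases h : R.lev n y = k
      · rw [if_pos h, if_pos h, map_inv₀, Complex.conj_ofReal, ← mul_inv, hs]
      · rw [if_neg h, if_neg h, map_zero, zero_mul]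
    rw [integral_congr_ae (Eventually.of_forall h2), R.hilb_int n k hk, if_pos rfl,
      mul_inv_cancel₀]
    exact_mod_cast hc.ne'
  · rw [if_neg hkk]
    have h2 : ∀ y : R.Y, (starRingEnd ℂ) (R.E n k y) * R.E n k' y = 0 := by
      intro y
      unfold E
      by_cases h : R.lev n y = k
      · rw [if_neg (show ¬ R.lev n y = k' from fun h' => hkk (h.symm.trans h')), mul_zero]
      · rw [if_neg h, map_zero, zero_mul]
    simp_rw [h2]
    exact integral_zero _ _

private theorem hilb_ae {p : R.Y → Prop} (h : ∀ᵐ y ∂(R.nu), p y) : ∀ᵐ y ∂(R.mu), p y := by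
  rw [ae_iff] at h ⊢
  unfold mu
  rw [Measure.smul_apply, h, smul_zero]

theorem U_e (n k : ℕ) (hk : k + 1 < R.h n) :
    Lp.compMeasurePreserving R.T R.mp_T (R.e n k) = R.e n (k + 1) := by
  apply Lp.ext
  have h1 := Lp.coeFn_compMeasurePreserving (R.e n k) R.mp_T
  have h2 : (fun y => (R.e n k : R.Y → ℂ) (R.T y)) =ᵐ[R.mu] fun y => R.E n k (R.T y) :=
    (R.mp_T.quasiMeasurePreserving).ae_eq_comp (R.hilb_coe n k)
  have h3 := R.hilb_coe n (k + 1)
  have h4 := R.hilb_ae (R.lev_dn_iff n k hk)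
  filter_upwards [h1, h2, h3, h4] with y e1 e2 e3 e4
  have e5 : (R.e n k : R.Y → ℂ) (R.T y) = R.E n k (R.T y) := e2
  have e6 : (Lp.compMeasurePreserving R.T R.mp_T (R.e n k) : R.Y → ℂ) y =
      (R.e n k : R.Y → ℂ) (R.T y) := e1
  rw [e6, e5, e3]
  unfold E
  by_cases h : R.lev n y = k + 1
  · rw [if_pos h, if_pos (e4.2 h)]
  · rw [if_neg h, if_neg fun h' => h (e4.1 h')]

private theorem hilb_c_succ (n : ℕ) : R.c n = R.m n * R.c (n + 1) := by
  rw [R.hilb_c n, R.hilb_c (n + 1)]
  have hM : R.M (n + 1) = R.M n * R.m n := R.blk.M_succ n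
  rw [hM, ENNReal.toReal_mul, ENNReal.toReal_mul, ENNReal.toReal_inv, ENNReal.toReal_inv,
    ENNReal.toReal_inv, ENNReal.toReal_natCast, ENNReal.toReal_natCast]
  have h1 : (R.m n : ℝ) ≠ 0 := by
    have := R.hm n
    exact_mod_cast (by omega : R.m n ≠ 0)
  have h2 : (R.M n : ℝ) ≠ 0 := by
    have := (R.blk.M_pos n).ne'
    exact_mod_cast this
  push_cast
  field_simp

private theorem hilb_E_refine (n k : ℕ) (hk : k < R.h n) (y : R.Y) :
    R.E n k y = ((Real.sqrt (R.m n))⁻¹ : ℂ) *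
      ∑ j ∈ Finset.range (R.m n), R.E (n + 1) (R.p n j + k) y := by
  have hc := R.c_pos (n + 1)
  have hm : (0 : ℝ) < R.m n := by
    have := R.hm n
    exact_mod_cast (by omega : 0 < R.m n)
  by_cases h : R.lev n y = k
  · obtain ⟨j, hj, hj2⟩ := (R.lev_refine n k hk y).1 h
    rw [Finset.sum_eq_single j]
    · unfold E
      rw [if_pos h, if_pos hj2, R.hilb_c_succ n, Real.sqrt_mul hm.le]
      push_cast
      rw [mul_inv]
    · intro i hi hij
      unfold E
      refine if_neg fun h' => ?_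
      have h5 : R.p n j = R.p n i := by omega
      have hi' : i < R.m n := Finset.mem_range.1 hi
      have hpos := R.hilb_h_pos n
      rcases lt_or_gt_of_ne hij with h6 | h6
      · have := R.p_add_le n i j h6 hj
        omega
      · have := R.p_add_le n j i h6 hi'
        omega
    · intro hj'
      exact absurd (Finset.mem_range.2 hj) hj'
  · rw [Finset.sum_eq_zero]
    · unfold E
      rw [if_neg h, mul_zero]
    · intro j hj
      unfold E
      exact if_neg fun h' => h ((R.lev_refine n k hk y).2 ⟨j, Finset.mem_range.1 hj, h'⟩)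

theorem e_refine (n k : ℕ) (hk : k < R.h n) :
    R.e n k = ((Real.sqrt (R.m n))⁻¹ : ℂ) • ∑ j ∈ Finset.range (R.m n), R.e (n + 1) (R.p n j + k) := by
  have hmem : ∀ s : Finset ℕ, MemLp (fun y => ∑ j ∈ s, R.E (n + 1) (R.p n j + k) y) 2 R.mu :=
    fun s => memLp_finsetSum s fun j _ => R.memLp_E (n + 1) _
  have hs : ∀ s : Finset ℕ, (∑ j ∈ s, R.e (n + 1) (R.p n j + k)) = (hmem s).toLp _ := by
    intro s
    classical
    induction s using Finset.induction_on with
    | empty =>
      rw [Finset.sum_empty]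
      apply Lp.ext
      refine (Lp.coeFn_zero _ _ _).trans ?_
      refine EventuallyEq.trans ?_ (hmem ∅).coeFn_toLp.symm
      exact Eventually.of_forall fun y => by simp
    | insert a s ha ih =>
      rw [Finset.sum_insert ha, ih]
      apply Lp.ext
      refine (Lp.coeFn_add _ _).trans ?_
      filter_upwards [R.hilb_coe (n + 1) (R.p n a + k), (hmem s).coeFn_toLp,
        (hmem (insert a s)).coeFn_toLp] with y e1 e2 e3
      rw [Pi.add_apply, e1, e2, e3, Finset.sum_insert ha]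
  rw [hs]
  apply Lp.ext
  refine (R.hilb_coe n k).trans ?_
  refine EventuallyEq.trans ?_ (Lp.coeFn_smul _ _).symm
  filter_upwards [(hmem (Finset.range (R.m n))).coeFn_toLp] with y e1
  rw [Pi.smul_apply, e1, smul_eq_mul]
  exact R.hilb_E_refine n k hk y

theorem integral_e (n k : ℕ) (hk : k < R.h n) :
    ∫ y, (R.e n k : R.Y → ℂ) y ∂(R.mu) = (Real.sqrt (R.c n) : ℂ) := by
  rw [integral_congr_ae (R.hilb_coe n k)]
  unfold E
  rw [R.hilb_int n k hk]
  have hc := R.c_pos n
  have hs : ((Real.sqrt (R.c n) : ℝ) : ℂ) * (Real.sqrt (R.c n) : ℝ) = ((R.c n : ℝ) : ℂ) := by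
    rw [← Complex.ofReal_mul, Real.mul_self_sqrt hc.le]
  have h0 : ((Real.sqrt (R.c n) : ℝ) : ℂ) ≠ 0 := by
    have := (Real.sqrt_pos.2 hc).ne'
    exact_mod_cast this
  rw [← hs, mul_assoc, mul_inv_cancel₀ h0, mul_one]

theorem tendsto_c : Tendsto (fun n => R.c n * R.h n) atTop (𝓝 1) := by
  have h1 := R.tendsto_mass
  have hne : R.nu Set.univ ≠ ∞ := R.nu_univ_lt.ne
  have h2 : Tendsto (fun n => ((R.h n : ℝ≥0∞) * ((R.M n : ℝ≥0∞))⁻¹).toReal) atTop
      (𝓝 (R.nu Set.univ).toReal) := (ENNReal.tendsto_toReal hne).comp h1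
  have hpos : 0 < (R.nu Set.univ).toReal := ENNReal.toReal_pos R.nu_univ_pos.ne' hne
  have h3 := h2.const_mul ((R.nu Set.univ).toReal⁻¹)
  rw [inv_mul_cancel₀ hpos.ne'] at h3
  refine h3.congr fun n => ?_
  rw [R.hilb_c n, ENNReal.toReal_mul, ENNReal.toReal_mul, ENNReal.toReal_inv, ENNReal.toReal_inv,
    ENNReal.toReal_natCast, ENNReal.toReal_natCast]
  ring

end RK

end P130B
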