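import Vale.Agent.Lib.P130B.T.Space

/-!
# P130B T: levels of the towers, part A
-/

open MeasureTheory Filter Topology
open scoped ENNReal

namespace P130B

namespace RK

variable (R : RK)

theorem measurable_lev (n : ℕ) : Measurable (R.lev n) := by
  have hv : Measurable fun y : R.Y => y.1 := measurable_subtype_coe
  have ha : Measurable fun y : R.Y => y.1.1 := measurable_fst.comp hv
  have hb : Measurable fun y : R.Y => y.1.2 := measurable_snd.comp hv
  have h1 : Measurable fun y : R.Y => R.idx n y.1.1 := (R.blk.measurable_idx n).comp ha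
  have h2 : Measurable (R.pos n) := measurable_from_nat
  exact (h2.comp h1).add hb

private theorem lev_up_idx (n : ℕ) (x : R.X) (h : R.idx n x + 1 < R.M n) :
    R.idx n (x + R.blk.one) = R.idx n x + 1 := by
  have h1 := R.blk.idx_add_nsmul n x 1
  rw [one_nsmul] at h1
  exact h1.trans (Nat.mod_eq_of_lt h)

/-- up: (exceptional point over `- one`) -/
theorem lev_up (n : ℕ) (y : R.Y) (hy : y.1.1 ≠ -R.blk.one) (h : R.lev n y + 1 < R.h n) :
    R.lev n (R.up y) = R.lev n y + 1 := by
  have hi : y.1.2 < R.r y.1.1 := y.2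
  have hu := R.up_fst y
  by_cases h1 : y.1.2 + 1 < R.r y.1.1
  · rw [if_pos h1] at hu
    unfold lev
    rw [hu]
    rfl
  · rw [if_neg h1] at hu
    have h2 : y.1.2 + 1 = R.r y.1.1 := by omega
    have h3 : R.idx n y.1.1 < R.M n := R.blk.idx_lt n y.1.1
    have h4 : R.lev n (R.up y) = R.pos n (R.idx n (y.1.1 + R.blk.one)) := by
      unfold lev
      rw [hu]
      rfl
    have h5 : R.lev n y = R.pos n (R.idx n y.1.1) + y.1.2 := rfl
    rcases Nat.lt_or_ge (R.idx n y.1.1 + 1) (R.M n) with h6 | h6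
    · have h7 := R.r_eq n y.1.1 h6
      rw [h4, R.lev_up_idx n y.1.1 h6]
      omega
    · have h7 : R.idx n y.1.1 + 1 = R.M n := by omega
      have h8 := R.r_last n y.1.1 hy h7
      omega

theorem lev_dn (n : ℕ) (y : R.Y) (h0 : 0 < R.lev n y) (h : R.lev n y < R.h n) :
    R.lev n (R.dn y) + 1 = R.lev n y := by
  have hu := R.dn_fst y
  have h5 : R.lev n y = R.pos n (R.idx n y.1.1) + y.1.2 := rfl
  by_cases h1 : y.1.2 = 0
  · rw [if_pos h1] at hu
    have h2 : R.idx n y.1.1 ≠ 0 := by
      intro h3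
      rw [h5, h3, h1, R.pos_zero] at h0
      exact absurd h0 (lt_irrefl _)
    have h3 : R.idx n (y.1.1 - R.blk.one) = R.idx n y.1.1 - 1 := R.blk.idx_sub_one n y.1.1 h2
    have h4 : R.lev n (R.dn y) = R.pos n (R.idx n (y.1.1 - R.blk.one)) +
        (R.r (y.1.1 - R.blk.one) - 1) := by
      unfold lev
      rw [hu]
    have h6 : R.idx n y.1.1 < R.M n := R.blk.idx_lt n y.1.1
    have h7 : R.idx n (y.1.1 - R.blk.one) + 1 = R.idx n y.1.1 := by omega
    have h8 := R.r_eq n (y.1.1 - R.blk.one) (by omega)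
    rw [h7] at h8
    have h9 := R.r_pos (y.1.1 - R.blk.one)
    omega
  · rw [if_neg h1] at hu
    have h4 : R.lev n (R.dn y) = R.pos n (R.idx n y.1.1) + (y.1.2 - 1) := by
      unfold lev
      rw [hu]
    omega

/-- level `k + 1` is the preimage of level `k` -/
theorem lev_dn_iff (n k : ℕ) (hk : k + 1 < R.h n) :
    ∀ᵐ y ∂(R.nu), (R.lev n (R.dn y) = k ↔ R.lev n y = k + 1) := by
  have h1 : ∀ᵐ z ∂(R.nu), z.1.1 ≠ -R.blk.one := by
    rw [ae_iff]
    simp only [ne_eq, not_not]
    exact R.nu_col _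
  have h2 : ∀ᵐ y ∂(R.nu), (R.dn y).1.1 ≠ -R.blk.one :=
    R.measurePreserving_T.quasiMeasurePreserving.ae h1
  filter_upwards [h2] with y hy
  constructor
  · intro h
    have h3 := R.lev_up n (R.dn y) hy (by rw [h]; exact hk)
    rw [R.up_dn, h] at h3
    exact h3
  · intro h
    have h3 := R.lev_dn n y (by omega) (by omega)
    omega

end RK

end P130B
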