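import Vale.Agent.Lib.P130B.T.LevA

/-!
# P130B T: levels of the towers, part B
-/

open MeasureTheory Filter Topology
open scoped ENNReal

namespace P130B

namespace RK

variable (R : RK)

private theorem pos_eq_zero (n q : ℕ) (hq : q < R.M n) : R.pos n q = 0 ↔ q = 0 := by
  constructor
  · intro h
    rcases q with _ | q
    · rfl
    · have h1 := R.pos_lt_succ n q hq
      omega
  · intro h
    rw [h]
    exact R.pos_zero n

private theorem slice_zero (n : ℕ) :
    slice {y : R.Y | R.lev n y = 0} 0 = {x | R.idx n x = 0} := by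
  ext x
  constructor
  · rintro ⟨h, hE⟩
    have h1 : R.pos n (R.idx n x) + 0 = 0 := hE
    exact (R.pos_eq_zero n _ (R.blk.idx_lt n x)).1 (by omega)
  · intro h
    refine ⟨R.r_pos x, ?_⟩
    have h1 : R.pos n (R.idx n x) = 0 := (R.pos_eq_zero n _ (R.blk.idx_lt n x)).2 h
    show R.pos n (R.idx n x) + 0 = 0
    omega

private theorem slice_succ (n i : ℕ) :
    slice {y : R.Y | R.lev n y = 0} (i + 1) = ∅ := by
  ext x
  constructor
  · rintro ⟨h, hE⟩
    have h1 : R.pos n (R.idx n x) + (i + 1) = 0 := hE
    omega
  · intro h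
    exact absurd h (Set.notMem_empty x)

private theorem measurableSet_lev (n k : ℕ) : MeasurableSet {y | R.lev n y = k} :=
  R.measurable_lev n (measurableSet_singleton k)

/-- each level has measure `1 / M n` -/
theorem nu_lev (n k : ℕ) (hk : k < R.h n) : R.nu {y | R.lev n y = k} = ((R.M n : ℝ≥0∞))⁻¹ := by
  induction k with
  | zero =>
    unfold nu
    rw [skyM_apply R.blk.muX R.measurable_r (R.measurableSet_lev n 0), tsum_eq_single 0,
      R.slice_zero n]
    · exact R.blk.muX_idx n 0 (R.blk.M_pos n)
    · intro i hi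
      obtain ⟨j, rfl⟩ := Nat.exists_eq_succ_of_ne_zero hi
      rw [Nat.succ_eq_add_one, R.slice_succ n j, measure_empty]
  | succ k ih =>
    rw [← ih (Nat.lt_of_succ_lt hk),
      ← R.measurePreserving_T.measure_preimage (R.measurableSet_lev n k).nullMeasurableSet]
    refine measure_congr ?_
    filter_upwards [R.lev_dn_iff n k hk] with y hy
    exact propext hy.symm

end RK

end P130B
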