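import Vale.Agent.Lib.P130B.T.Space

/-!
# P130B T: levels of the towers, part C
-/

open MeasureTheory Filter Topology
open scoped ENNReal

namespace P130B

namespace RK

variable (R : RK)

private theorem levC_j_lt (n : ℕ) (x : R.X) : R.idx (n + 1) x / R.M n < R.m n := by
  refine Nat.div_lt_of_lt_mul ?_
  have h1 : R.idx (n + 1) x < R.M (n + 1) := R.blk.idx_lt (n + 1) x
  have h2 : R.M (n + 1) = R.M n * R.m n := R.blk.M_succ n
  rw [h2] at h1
  exact h1

/-- refinement: level `k` of tower `n` is the disjoint union of the levels `p n j + k` of tower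
`n + 1` (`lev_succ`, `lev_lt_next`, `p_add_le`) -/
theorem lev_refine (n k : ℕ) (hk : k < R.h n) (y : R.Y) :
    R.lev n y = k ↔ ∃ j < R.m n, R.lev (n + 1) y = R.p n j + k := by
  have hj := R.levC_j_lt n y.1.1
  have hs := R.lev_succ n y
  have hnext := R.lev_lt_next n y
  generalize R.idx (n + 1) y.1.1 / R.M n = j at hj hs hnext
  constructor
  · intro h
    exact ⟨j, hj, by omega⟩
  · rintro ⟨j', hj', h⟩
    rcases lt_trichotomy j j' with h1 | h1 | h1
    · exfalso
      have h2 : j + 1 < R.m n := lt_of_le_of_lt h1 hj'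
      have h3 := hnext h2
      have h4 : R.p n (j + 1) ≤ R.p n j' := by
        rcases Nat.lt_or_ge (j + 1) j' with h5 | h5
        · have := R.p_add_le n (j + 1) j' h5 hj'
          omega
        · have h6 : j' = j + 1 := by omega
          rw [h6]
      omega
    · subst h1
      omega
    · exfalso
      have h2 := R.p_add_le n j' j h1 hj
      omega

/-- the towers exhaust the space: almost every point is in some tower, the towers increase -/
theorem lev_mono (n : ℕ) (y : R.Y) (h : R.lev n y < R.h n) : R.lev (n + 1) y < R.h (n + 1) := by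
  have hj := R.levC_j_lt n y.1.1
  have hs := R.lev_succ n y
  have h1 := R.p_le_h n _ hj
  omega

theorem exists_lev_lt (y : R.Y) (hy : y.1.1 ≠ -R.blk.one) : ∃ n, R.lev n y < R.h n := by
  obtain ⟨n, hn⟩ := R.exists_idx y.1.1 hy
  refine ⟨n, ?_⟩
  have h1 := R.r_eq n y.1.1 hn
  have h2 := R.pos_lt n _ hn
  have h3 : y.1.2 < R.r y.1.1 := y.2
  have h4 : R.lev n y = R.pos n (R.idx n y.1.1) + y.1.2 := rfl
  omega

end RK

end P130B
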