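import Vale.Agent.Lib.P130B.T.LevB
import Vale.Agent.Lib.P130B.T.LevC

/-!
# P130B T: levels of the towers, part D
-/

open MeasureTheory Filter Topology
open scoped ENNReal

namespace P130B

namespace RK

variable (R : RK)

private theorem nu_tower (n : ℕ) :
    R.nu {y | R.lev n y < R.h n} = (R.h n : ℝ≥0∞) * ((R.M n : ℝ≥0∞))⁻¹ := by
  have h1 : {y : R.Y | R.lev n y < R.h n}
      = ⋃ k ∈ Finset.range (R.h n), {y : R.Y | R.lev n y = k} := by
    ext y; simp
  rw [h1, measure_biUnion_finset]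
  · rw [Finset.sum_congr rfl (fun k hk => R.nu_lev n k (Finset.mem_range.1 hk))]
    simp
  · intro k _ l _ hkl
    refine Set.disjoint_left.2 fun y hy hy' => hkl ?_
    exact Eq.trans (Eq.symm hy) hy'
  · intro k _
    exact R.measurable_lev n (measurableSet_singleton k)

private theorem nu_union : R.nu (⋃ n, {y : R.Y | R.lev n y < R.h n}) = R.nu Set.univ := by
  refine le_antisymm (measure_mono (Set.subset_univ _)) ?_
  have h1 : (Set.univ : Set R.Y) ⊆ (⋃ n, {y : R.Y | R.lev n y < R.h n})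
      ∪ {y : R.Y | y.1.1 = -R.blk.one} := by
    intro y _
    by_cases hy : y.1.1 = -R.blk.one
    · exact Or.inr hy
    · obtain ⟨n, hn⟩ := R.exists_lev_lt y hy
      exact Or.inl (Set.mem_iUnion.2 ⟨n, hn⟩)
  refine (measure_mono h1).trans ((measure_union_le _ _).trans ?_)
  rw [R.nu_col, add_zero]

private theorem mono_tower : Monotone (fun n => {y : R.Y | R.lev n y < R.h n}) :=
  monotone_nat_of_le_succ fun n y hy => R.lev_mono n y hy

private theorem tower_le (n : ℕ) : (R.h n : ℝ≥0∞) * ((R.M n : ℝ≥0∞))⁻¹ ≤ (R.C : ℝ≥0∞) := by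
  have hM : (R.M n : ℝ≥0∞) ≠ 0 := by
    have := R.blk.M_pos n
    exact_mod_cast this.ne'
  rw [← div_eq_mul_inv]
  refine ENNReal.div_le_of_le_mul ?_
  have h := R.hC n
  have h2 : R.h n ≤ R.C * R.M n := h
  exact_mod_cast h2

theorem tendsto_mass : Tendsto (fun n => (R.h n : ℝ≥0∞) * ((R.M n : ℝ≥0∞))⁻¹) atTop
    (𝓝 (R.nu Set.univ)) := by
  have h := tendsto_measure_iUnion_atTop (μ := R.nu) R.mono_tower
  rw [R.nu_union] at h
  refine h.congr fun n => ?_
  exact R.nu_tower n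

/-- total mass -/
theorem nu_univ_lt : R.nu Set.univ < ⊤ := by
  have h : R.nu Set.univ ≤ (R.C : ℝ≥0∞) := le_of_tendsto' R.tendsto_mass R.tower_le
  exact lt_of_le_of_lt h (ENNReal.natCast_lt_top _)

theorem nu_univ_pos : 0 < R.nu Set.univ := by
  refine lt_of_lt_of_le ?_ (measure_mono (Set.subset_univ {y : R.Y | R.lev 0 y < R.h 0}))
  rw [R.nu_tower 0, R.h0]
  have : R.M 0 = 1 := R.blk.M_zero
  rw [this]
  simp

end RK

end P130B
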