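import Vale.Agent.Lib.P130B.T.Comb

/-!
# P130B T: the roof function
-/

open MeasureTheory Filter Topology
open scoped ENNReal

namespace P130B

namespace RK

variable (R : RK)

theorem r_pos (x : R.X) : 0 < R.r x := by
  unfold r
  split_ifs with hx
  · have h := R.pos_lt_succ (Nat.find hx) _ (Nat.find_spec hx)
    omega
  · exact one_pos

/-- if all digits of `x` are maximal then `x = - one` (`Blk.ext_idx`, `Blk.idx_sub_one_zero`) -/
theorem exists_idx (x : R.X) (hx : x ≠ -R.blk.one) : ∃ n, R.idx n x + 1 < R.M n := by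
  by_contra hcon
  apply hx
  apply R.blk.ext_idx
  intro n
  have h1 : ¬ R.idx n x + 1 < R.M n := fun h => hcon ⟨n, h⟩
  have h2 : R.blk.idx n x < R.blk.M n := R.blk.idx_lt n x
  have h3 : R.blk.idx n (0 : R.X) = 0 := by
    change (0 : ZMod (R.blk.M n)).val = 0
    exact ZMod.val_zero
  have h4 := R.blk.idx_sub_one_zero n 0 h3
  rw [zero_sub] at h4
  rw [h4]
  change ¬ R.blk.idx n x + 1 < R.blk.M n at h1
  omega

theorem r_eq (n : ℕ) (x : R.X) (h : R.idx n x + 1 < R.M n) :
    R.pos n (R.idx n x) + R.r x = R.pos n (R.idx n x + 1) := by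
  have hx : ∃ n, R.idx n x + 1 < R.M n := ⟨n, h⟩
  have hr : R.r x = R.pos (Nat.find hx) (R.idx (Nat.find hx) x + 1) -
      R.pos (Nat.find hx) (R.idx (Nat.find hx) x) := by
    unfold r
    rw [dif_pos hx]
  obtain ⟨k, hk⟩ : ∃ k, k = Nat.find hx := ⟨_, rfl⟩
  have hkn : k ≤ n := by
    rw [hk]
    exact Nat.find_min' hx h
  have hk2 : R.idx k x + 1 < R.M k := by
    rw [hk]
    exact Nat.find_spec hx
  rw [← hk] at hr
  have e1 : R.idx n x % R.M k = R.idx k x := R.blk.idx_mod hkn x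
  have h1 := R.pos_stab k n (R.idx n x) hkn (R.blk.idx_lt n x) (by rw [e1]; exact hk2)
  have h2 := R.pos_lt_succ k (R.idx k x) hk2
  rw [e1] at h1
  omega

theorem r_last (n : ℕ) (x : R.X) (hx : x ≠ -R.blk.one) (h : R.idx n x + 1 = R.M n) :
    R.h n ≤ R.pos n (R.idx n x) + R.r x := by
  obtain ⟨N, hN⟩ := R.exists_idx x hx
  have hnN : n < N := by
    by_contra hcon
    rw [not_lt] at hcon
    have e1 : R.idx n x % R.M N = R.idx N x := R.blk.idx_mod hcon x
    have h1 : (R.idx n x + 1) % R.M N = 0 := by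
      rw [h]
      exact Nat.mod_eq_zero_of_dvd (R.blk.M_dvd hcon)
    rw [← Nat.mod_add_mod, e1, Nat.mod_eq_of_lt hN] at h1
    omega
  have e1 : R.idx N x % R.M n = R.idx n x := R.blk.idx_mod hnN.le x
  have h1 := R.pos_last n N (R.idx N x) hnN.le hN (by rw [e1]; exact h)
  have h2 := R.r_eq N x hN
  rw [e1] at h1
  omega

theorem measurable_r : Measurable R.r := by
  have hm : ∀ (n : ℕ) (P : ℕ → Prop), MeasurableSet {x : R.X | P (R.idx n x)} := fun n P =>
    R.blk.measurable_idx n (MeasurableSet.of_discrete (s := {q | P q}))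
  refine measurable_to_countable' fun k => ?_
  have h1 : R.r ⁻¹' {k} =
      (⋃ n, {x : R.X | R.idx n x + 1 < R.M n ∧
        R.pos n (R.idx n x + 1) - R.pos n (R.idx n x) = k}) ∪
      ((⋂ n, {x : R.X | ¬ R.idx n x + 1 < R.M n}) ∩ {_x : R.X | 1 = k}) := by
    ext x
    simp only [Set.mem_preimage, Set.mem_singleton_iff, Set.mem_union, Set.mem_iUnion,
      Set.mem_ofPred_eq, Set.mem_inter_iff, Set.mem_iInter]
    by_cases hx : ∃ n, R.idx n x + 1 < R.M n
    · constructor
      · intro h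
        obtain ⟨n, hn⟩ := hx
        have h2 := R.r_eq n x hn
        exact Or.inl ⟨n, hn, by omega⟩
      · rintro (⟨n, hn, h2⟩ | ⟨h2, -⟩)
        · have h3 := R.r_eq n x hn
          omega
        · obtain ⟨n, hn⟩ := hx
          exact absurd hn (h2 n)
    · have hr : R.r x = 1 := by
        unfold r
        rw [dif_neg hx]
      rw [hr]
      constructor
      · intro h
        exact Or.inr ⟨fun n hn => hx ⟨n, hn⟩, h⟩
      · rintro (⟨n, hn, -⟩ | ⟨-, h⟩)
        · exact absurd ⟨n, hn⟩ hx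
        · exact h
  rw [h1]
  refine MeasurableSet.union (MeasurableSet.iUnion fun n => ?_)
    (MeasurableSet.inter (MeasurableSet.iInter fun n => ?_) (MeasurableSet.const _))
  · exact hm n fun q => q + 1 < R.M n ∧ R.pos n (q + 1) - R.pos n q = k
  · exact hm n fun q => ¬ q + 1 < R.M n

/-- a point in copy `j` of tower `n` or above it is below copy `j + 1` -/
theorem lev_lt_next (n : ℕ) (y : R.Y) (hj : R.idx (n + 1) y.1.1 / R.M n + 1 < R.m n) :
    R.lev (n + 1) y < R.p n (R.idx (n + 1) y.1.1 / R.M n + 1) := by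
  have hy : y.1.2 < R.r y.1.1 := y.2
  have hM : 0 < R.M n := R.blk.M_pos n
  have hMs : R.M (n + 1) = R.M n * R.m n := R.blk.M_succ n
  obtain ⟨q, hq⟩ : ∃ q, q = R.idx (n + 1) y.1.1 := ⟨_, rfl⟩
  have hdm := Nat.div_add_mod q (R.M n)
  have hml := Nat.mod_lt q hM
  rw [← hq] at hj ⊢
  have hq1 : q + 1 < R.M (n + 1) := by
    have h1 : q + 1 ≤ R.M n * (q / R.M n + 1) := by
      rw [Nat.mul_add, Nat.mul_one]
      omega
    have h2 : R.M n * (q / R.M n + 1) < R.M n * R.m n := Nat.mul_lt_mul_of_pos_left hj hM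
    rw [hMs]
    omega
  have h3 := R.r_eq (n + 1) y.1.1 (by rw [← hq]; exact hq1)
  rw [← hq] at h3
  have h4 : R.lev (n + 1) y < R.pos (n + 1) (q + 1) := by
    unfold lev
    rw [← hq]
    omega
  refine lt_of_lt_of_le h4 ?_
  rcases Nat.lt_or_ge (q % R.M n + 1) (R.M n) with h5 | h5
  · have e1 : (q + 1) % R.M n = q % R.M n + 1 := by
      rw [← Nat.mod_add_mod, Nat.mod_eq_of_lt h5]
    have e2 : (q + 1) / R.M n = q / R.M n := by
      have := Nat.div_add_mod (q + 1) (R.M n)
      rw [e1] at this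
      have h6 : R.M n * ((q + 1) / R.M n) = R.M n * (q / R.M n) := by omega
      exact Nat.eq_of_mul_eq_mul_left hM h6
    have e3 : R.pos (n + 1) (q + 1) = R.pos n (q % R.M n + 1) + R.p n (q / R.M n) := by
      change R.pos n ((q + 1) % R.M n) + R.p n ((q + 1) / R.M n) = _
      rw [e1, e2]
    have h6 := R.pos_lt n _ h5
    have h7 := R.hp n (q / R.M n) hj
    omega
  · have h8 : q % R.M n + 1 = R.M n := by omega
    have e1 : (q + 1) % R.M n = 0 := by
      rw [← Nat.mod_add_mod, h8, Nat.mod_self]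
    have e2 : (q + 1) / R.M n = q / R.M n + 1 := by
      have := Nat.div_add_mod (q + 1) (R.M n)
      rw [e1] at this
      have h6 : R.M n * ((q + 1) / R.M n) = R.M n * (q / R.M n + 1) := by
        rw [Nat.mul_add, Nat.mul_one]
        omega
      exact Nat.eq_of_mul_eq_mul_left hM h6
    have e3 : R.pos (n + 1) (q + 1) = R.pos n 0 + R.p n (q / R.M n + 1) := by
      change R.pos n ((q + 1) % R.M n) + R.p n ((q + 1) / R.M n) = _
      rw [e1, e2]
    rw [e3, R.pos_zero, zero_add]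

theorem lev_succ (n : ℕ) (y : R.Y) :
    R.lev (n + 1) y = R.lev n y + R.p n (R.idx (n + 1) y.1.1 / R.M n) := by
  have e1 : R.idx (n + 1) y.1.1 % R.M n = R.idx n y.1.1 := R.blk.idx_succ_mod n y.1.1
  have e2 : R.pos (n + 1) (R.idx (n + 1) y.1.1) = R.pos n (R.idx (n + 1) y.1.1 % R.M n) +
      R.p n (R.idx (n + 1) y.1.1 / R.M n) := rfl
  unfold lev
  rw [e2, e1]
  omega

end RK

end P130B
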