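import Vale.Agent.Lib.P130B.T.Roof

/-!
# P130B T: the suspension as a measure-preserving system (not normalized)
-/

open MeasureTheory Filter Topology
open scoped ENNReal

namespace P130B

namespace RK

variable (R : RK)

/-- the odometer as a measurable equivalence -/
noncomputable def tau : R.X ≃ᵐ R.X := (Homeomorph.addRight R.blk.one).toMeasurableEquiv

theorem tau_apply (x : R.X) : R.tau x = x + R.blk.one := rfl

theorem tau_symm_apply (x : R.X) : R.tau.symm x = x - R.blk.one := by
  rw [MeasurableEquiv.symm_apply_eq, R.tau_apply, sub_add_cancel]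

theorem mp_tau : MeasurePreserving R.tau R.blk.muX R.blk.muX :=
  measurePreserving_add_right R.blk.muX R.blk.one

instance : StandardBorelSpace R.Y := standardBorel_sky R.measurable_r

/-- the transformation (one step down) -/
noncomputable def T : R.Y ≃ᵐ R.Y := (skyT R.tau R.measurable_r R.r_pos).symm

/-- one step down -/
noncomputable abbrev dn (y : R.Y) : R.Y := R.T y

/-- one step up -/
noncomputable abbrev up (y : R.Y) : R.Y := R.T.symm y

theorem up_dn (y : R.Y) : R.up (R.dn y) = y := R.T.symm_apply_apply y

theorem dn_up (y : R.Y) : R.dn (R.up y) = y := R.T.apply_symm_apply y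

theorem up_fst (y : R.Y) : (R.up y).1 = if y.1.2 + 1 < R.r y.1.1 then (y.1.1, y.1.2 + 1)
    else (y.1.1 + R.blk.one, 0) := skyF_fst R.tau R.r_pos y

theorem dn_fst (y : R.Y) : (R.dn y).1 = if y.1.2 = 0 then
    (y.1.1 - R.blk.one, R.r (y.1.1 - R.blk.one) - 1) else (y.1.1, y.1.2 - 1) := by
  have h := skyG_fst R.tau.symm R.r_pos y
  rw [R.tau_symm_apply] at h
  exact h

/-- the measure, not normalized: Haar measure times counting measure -/
noncomputable def nu : Measure R.Y := skyM R.blk.muX R.r

theorem measurePreserving_T : MeasurePreserving R.T R.nu R.nu :=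
  (measurePreserving_skyT R.mp_tau R.measurable_r R.r_pos).symm _

theorem nu_singleton (y : R.Y) : R.nu {y} = 0 :=
  (nullSingleton_sky (ν := R.blk.muX) R.measurable_r).measure_singleton y

/-- the column over `- one` is a null set -/
theorem nu_col (x : R.X) : R.nu {y | y.1.1 = x} = 0 := by
  have hm : MeasurableSet {y : R.Y | y.1.1 = x} :=
    (measurable_fst.comp measurable_subtype_coe) (measurableSet_singleton x)
  unfold nu
  rw [skyM_apply _ R.measurable_r hm, ENNReal.tsum_eq_zero]
  intro i
  refine measure_mono_null (t := {x}) ?_ (measure_singleton _)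
  rintro z ⟨_, h2⟩
  exact h2

end RK

end P130B
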